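import Vale.Agent.P361.LRO.Loop.Perm

/-! P361 / LRO / LOC by loops, part 2: the flipped weight (two `σ¹` insertions). -/

namespace Vale.Agent.P361.LRO.Loop

open Finset Equiv

variable {N : Type*} [Fintype N] [DecidableEq N]

/-- spin (entering each node) is flipped when passing `u` and when passing `v` -/
def finv (π : Perm N) (u v : N) : Finset (N → ℤˣ) :=
  univ.filter fun s => ∀ x, s (π x) = if x = u ∨ x = v then - s x else s x

lemma mem_finv {π : Perm N} {u v : N} {s : N → ℤˣ} :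
    s ∈ finv π u v ↔ ∀ x, s (π x) = if x = u ∨ x = v then - s x else s x := by
  simp [finv]

/-- weight of a ring configuration with `σ¹` in place of the slices at `u` and `v` -/
noncomputable def Zf (π : Perm N) (θ : N → ℝ) (u v : N) : ℝ :=
  ∑ s ∈ finv π u v, ∏ x ∈ univ \ {u, v}, (1 + θ x * sg (s x))

lemma Zf_nonneg (π : Perm N) (θ : N → ℝ) (h0 : ∀ v, 0 ≤ θ v) (h1 : ∀ v, θ v ≤ 1) (u v : N) :
    0 ≤ Zf π θ u v :=
  Finset.sum_nonneg fun _ _ => Finset.prod_nonneg fun x _ => one_add_nonneg (h0 x) (h1 x) _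

lemma Zf_comm (π : Perm N) (θ : N → ℝ) (u v : N) : Zf π θ u v = Zf π θ v u := by
  unfold Zf finv
  rw [Finset.pair_comm]
  simp_rw [or_comm]

/-- the short arc from `u` to `v = π^m u` -/
def arc (π : Perm N) (u : N) (m : ℕ) : Finset N := (Finset.Icc 1 m).image fun i => (π ^ i) u

lemma mem_arc {π : Perm N} {u : N} {m : ℕ} {x : N} :
    x ∈ arc π u m ↔ ∃ i, 1 ≤ i ∧ i ≤ m ∧ (π ^ i) u = x := by
  simp [arc, and_assoc]

/-- flipping a configuration on a set -/
def flipOn (A : Finset N) (s : N → ℤˣ) : N → ℤˣ := fun x => if x ∈ A then - s x else s x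

lemma flipOn_flipOn (A : Finset N) (s : N → ℤˣ) : flipOn A (flipOn A s) = s := by
  funext x
  unfold flipOn
  by_cases h : x ∈ A <;> simp [h]

lemma arc_step {π : Perm N} {u : N} {m : ℕ} (hm : 1 ≤ m)
    (hu : ∀ i, 1 ≤ i → i ≤ m → (π ^ i) u ≠ u) (x : N) :
    (π x ∈ arc π u m) ↔ (x = u ∨ (x ∈ arc π u m ∧ x ≠ (π ^ m) u)) := by
  constructor
  · intro h
    obtain ⟨i, hi1, him, hi⟩ := mem_arc.1 h
    obtain ⟨j, rfl⟩ : ∃ j, i = j + 1 := ⟨i - 1, by omega⟩
    rw [pow_succ', Perm.mul_apply] at hi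
    have hx : (π ^ j) u = x := π.injective hi
    rcases Nat.eq_zero_or_pos j with hj | hj
    · left; rw [hj] at hx; simpa using hx.symm
    · right
      refine ⟨mem_arc.2 ⟨j, hj, by omega, hx⟩, ?_⟩
      intro hxm
      rw [← hx] at hxm
      -- π^j u = π^m u with j < m gives π^(m-j) u = u
      have : (π ^ (m - j)) u = u := by
        have h2 : (π ^ m) u = (π ^ j) ((π ^ (m - j)) u) := by
          rw [← Perm.mul_apply, ← pow_add]; congr 2; omega
        rw [h2] at hxm
        exact ((π ^ j).injective hxm).symm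
      exact hu (m - j) (by omega) (by omega) this
  · rintro (h | ⟨h, hne⟩)
    · subst h
      exact mem_arc.2 ⟨1, le_refl _, hm, by simp⟩
    · obtain ⟨i, hi1, him, hi⟩ := mem_arc.1 h
      have : i ≠ m := by
        rintro rfl
        exact hne hi.symm
      refine mem_arc.2 ⟨i + 1, by omega, by omega, ?_⟩
      rw [pow_succ', Perm.mul_apply, hi]

lemma u_not_mem_arc {π : Perm N} {u : N} {m : ℕ}
    (hu : ∀ i, 1 ≤ i → i ≤ m → (π ^ i) u ≠ u) : u ∉ arc π u m := by
  intro h
  obtain ⟨i, h1, h2, h3⟩ := mem_arc.1 h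
  exact hu i h1 h2 h3

lemma flipOn_mem_finv {π : Perm N} {u : N} {m : ℕ} (hm : 1 ≤ m)
    (hu : ∀ i, 1 ≤ i → i ≤ m → (π ^ i) u ≠ u) {s : N → ℤˣ} (hs : s ∈ inv π) :
    flipOn (arc π u m) s ∈ finv π u ((π ^ m) u) := by
  rw [mem_inv] at hs
  rw [mem_finv]
  intro x
  have hstep := arc_step hm hu x
  have huA := u_not_mem_arc hu
  have hvA : (π ^ m) u ∈ arc π u m := mem_arc.2 ⟨m, hm, le_refl _, rfl⟩
  unfold flipOn
  by_cases hxu : x = u
  · subst hxu
    rw [if_pos (hstep.2 (Or.inl rfl)), if_pos (Or.inl rfl), if_neg huA, hs]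
  · by_cases hxv : x = (π ^ m) u
    · have h1 : π x ∉ arc π u m := by
        intro h
        rcases hstep.1 h with h | h
        · exact hxu h
        · exact h.2 hxv
      rw [if_neg h1, if_pos (Or.inr hxv), if_pos (hxv ▸ hvA), hs, neg_neg]
    · rw [if_neg (by tauto : ¬ (x = u ∨ x = (π ^ m) u))]
      by_cases hxA : x ∈ arc π u m
      · rw [if_pos (hstep.2 (Or.inr ⟨hxA, hxv⟩)), if_pos hxA, hs]
      · have h1 : π x ∉ arc π u m := by
          intro h
          rcases hstep.1 h with h | h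
          · exact hxu h
          · exact hxA h.1
        rw [if_neg h1, if_neg hxA, hs]

/-- **arc bound**: if `v = π^m u` is reached from `u` along a short arc, the flipped weight is at
least `∏_{arc interior} (1-θ)/(1+θ)` times `Zp / ((1+θ u)(1+θ v))`. -/
theorem Zf_ge (π : Perm N) (θ : N → ℝ) (h0 : ∀ v, 0 ≤ θ v) (h1 : ∀ v, θ v ≤ 1) (u : N) {m : ℕ}
    (hm : 1 ≤ m) (hu : ∀ i, 1 ≤ i → i ≤ m → (π ^ i) u ≠ u) :
    (∏ x ∈ arc π u m \ {(π ^ m) u}, ((1 - θ x) / (1 + θ x))) * Zp π θ ≤
      (1 + θ u) * (1 + θ ((π ^ m) u)) * Zf π θ u ((π ^ m) u) := by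
  set v := (π ^ m) u with hv
  set A := arc π u m with hA
  have huA : u ∉ A := u_not_mem_arc hu
  have hvA : v ∈ A := mem_arc.2 ⟨m, hm, le_refl _, rfl⟩
  have huv : u ≠ v := fun h => huA (h ▸ hvA)
  -- reindex
  have hsub : ∑ s ∈ inv π, ∏ x ∈ univ \ {u, v}, (1 + θ x * sg (flipOn A s x)) ≤ Zf π θ u v := by
    have hinj : Set.InjOn (flipOn A) (inv π : Set (N → ℤˣ)) := by
      intro s _ t _ h
      have := congrArg (flipOn A) h
      rwa [flipOn_flipOn, flipOn_flipOn] at this
    rw [← Finset.sum_image (f := fun s : N → ℤˣ => ∏ x ∈ univ \ {u, v}, (1 + θ x * sg (s x)))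
      (g := flipOn A) hinj]
    refine Finset.sum_le_sum_of_subset_of_nonneg ?_ ?_
    · intro t ht
      obtain ⟨s, hs, rfl⟩ := Finset.mem_image.1 ht
      exact flipOn_mem_finv hm hu hs
    · intro s _ _
      exact Finset.prod_nonneg fun x _ => one_add_nonneg (h0 x) (h1 x) _
  have hpos : 0 ≤ (1 + θ u) * (1 + θ v) := by
    have := h0 u; have := h0 v; positivity
  refine le_trans ?_ (mul_le_mul_of_nonneg_left hsub hpos)
  unfold Zp
  rw [Finset.mul_sum, Finset.mul_sum]
  refine Finset.sum_le_sum fun s _ => ?_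
  -- split the products
  have hsplit1 : ∏ x, (1 + θ x * sg (s x)) =
      (∏ x ∈ A \ {v}, (1 + θ x * sg (s x))) * ((∏ x ∈ univ \ insert u A, (1 + θ x * sg (s x))) *
        ((1 + θ u * sg (s u)) * (1 + θ v * sg (s v)))) := by
    have e1 : (univ : Finset N) = insert u (insert v ((A \ {v}) ∪ (univ \ insert u A))) := by
      ext x
      simp only [mem_univ, mem_insert, mem_union, mem_sdiff, mem_singleton, true_iff, true_and]
      tauto
    have hd : Disjoint (A \ {v}) (univ \ insert u A) := by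
      rw [Finset.disjoint_left]
      intro x hx hx'
      simp only [mem_sdiff, mem_insert, mem_univ, true_and] at hx hx'
      tauto
    have hv' : v ∉ (A \ {v}) ∪ (univ \ insert u A) := by
      simp only [mem_union, mem_sdiff, mem_singleton, mem_insert, mem_univ, true_and]
      tauto
    have hu' : u ∉ insert v ((A \ {v}) ∪ (univ \ insert u A)) := by
      simp only [mem_union, mem_sdiff, mem_singleton, mem_insert, mem_univ, true_and]
      tauto
    conv_lhs => rw [e1]
    rw [Finset.prod_insert hu', Finset.prod_insert hv', Finset.prod_union hd]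
    ring
  have hsplit2 : ∏ x ∈ univ \ {u, v}, (1 + θ x * sg (flipOn A s x)) =
      (∏ x ∈ A \ {v}, (1 - θ x * sg (s x))) * (∏ x ∈ univ \ insert u A, (1 + θ x * sg (s x))) := by
    have e1 : (univ : Finset N) \ {u, v} = (A \ {v}) ∪ (univ \ insert u A) := by
      ext x
      simp only [mem_univ, mem_insert, mem_union, mem_sdiff, mem_singleton, true_and]
      constructor
      · intro h
        by_cases hx : x ∈ A <;> tauto
      · rintro (h | h)
        · refine fun h' => ?_
          rcases h' with h' | h'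
          · exact huA (h' ▸ h.1)
          · exact h.2 h'
        · refine fun h' => ?_
          rcases h' with h' | h'
          · exact h (Or.inl h')
          · exact h (Or.inr (h' ▸ hvA))
    have hd : Disjoint (A \ {v}) (univ \ insert u A) := by
      rw [Finset.disjoint_left]
      intro x hx hx'
      simp only [mem_sdiff, mem_insert, mem_univ, true_and] at hx hx'
      tauto
    rw [e1, Finset.prod_union hd]
    congr 1
    · refine Finset.prod_congr rfl fun x hx => ?_
      rw [mem_sdiff] at hx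
      unfold flipOn
      rw [if_pos hx.1, sg_neg]; ring
    · refine Finset.prod_congr rfl fun x hx => ?_
      simp only [mem_sdiff, mem_insert, mem_univ, true_and] at hx
      unfold flipOn
      rw [if_neg (by tauto)]
  rw [hsplit1, hsplit2]
  set P := ∏ x ∈ univ \ insert u A, (1 + θ x * sg (s x)) with hP
  have hP0 : 0 ≤ P := Finset.prod_nonneg fun x _ => one_add_nonneg (h0 x) (h1 x) _
  have hA1 : (∏ x ∈ A \ {v}, ((1 - θ x) / (1 + θ x))) * (∏ x ∈ A \ {v}, (1 + θ x * sg (s x))) ≤
      ∏ x ∈ A \ {v}, (1 - θ x * sg (s x)) := by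
    rw [← Finset.prod_mul_distrib]
    refine Finset.prod_le_prod ?_ ?_
    · intro x _
      refine mul_nonneg (div_nonneg ?_ ?_) (one_add_nonneg (h0 x) (h1 x) _)
      · linarith [h1 x]
      · linarith [h0 x]
    · intro x _
      have hx0 := h0 x
      have hx1 := h1 x
      rw [div_mul_eq_mul_div, div_le_iff₀ (by linarith)]
      rcases sg_cases (s x) with h | h <;> rw [h] <;> nlinarith
  have hu1 : (1 + θ u * sg (s u)) * (1 + θ v * sg (s v)) ≤ (1 + θ u) * (1 + θ v) := by
    have a1 : 1 + θ u * sg (s u) ≤ 1 + θ u := by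
      have := h0 u
      rcases sg_cases (s u) with h | h <;> rw [h] <;> linarith
    have a2 : 1 + θ v * sg (s v) ≤ 1 + θ v := by
      have := h0 v
      rcases sg_cases (s v) with h | h <;> rw [h] <;> linarith
    exact mul_le_mul a1 a2 (one_add_nonneg (h0 v) (h1 v) _) (by linarith [h0 u])
  have hA0 : 0 ≤ ∏ x ∈ A \ {v}, (1 - θ x * sg (s x)) := by
    refine Finset.prod_nonneg fun x _ => ?_
    have := one_add_nonneg (h0 x) (h1 x) (-(s x))
    rw [sg_neg] at this; linarith
  calc (∏ x ∈ A \ {v}, ((1 - θ x) / (1 + θ x))) * ((∏ x ∈ A \ {v}, (1 + θ x * sg (s x))) *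
        (P * ((1 + θ u * sg (s u)) * (1 + θ v * sg (s v)))))
      = ((∏ x ∈ A \ {v}, ((1 - θ x) / (1 + θ x))) * (∏ x ∈ A \ {v}, (1 + θ x * sg (s x)))) *
        (P * ((1 + θ u * sg (s u)) * (1 + θ v * sg (s v)))) := by ring
    _ ≤ (∏ x ∈ A \ {v}, (1 - θ x * sg (s x))) * (P * ((1 + θ u) * (1 + θ v))) := by
        refine mul_le_mul hA1 (mul_le_mul_of_nonneg_left hu1 hP0) ?_ hA0
        exact mul_nonneg hP0 (mul_nonneg (one_add_nonneg (h0 u) (h1 u) _)
          (one_add_nonneg (h0 v) (h1 v) _))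
    _ = (1 + θ u) * (1 + θ v) * ((∏ x ∈ A \ {v}, (1 - θ x * sg (s x))) * P) := by ring

end Vale.Agent.P361.LRO.Loop
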