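import Vale.Agent.P361.LRO.Defs
import Vale.Agent.P361.LRO.Loop.Flip

/-! P361 / LRO / LOC by loops, part 3: change of basis (flips picture <-> `S³` picture). -/

namespace Vale.Agent.P361.LRO.Loop

open Finset Equiv Matrix

variable {X : Type} [Fintype X] [DecidableEq X]

/-- trace of a product of one-site matrices along the cycles of `π` -/
noncomputable def TT (π : Perm X) (A : X → Matrix (Fin 2) (Fin 2) ℝ) : ℝ :=
  ∑ s : X → Fin 2, ∏ x, A x (s x) (s (π x))

omit [DecidableEq X] in
lemma prod_sum_sum [DecidableEq X] (f : X → Fin 2 → Fin 2 → ℝ) :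
    ∏ x, ∑ a, ∑ b, f x a b = ∑ a : X → Fin 2, ∑ b : X → Fin 2, ∏ x, f x (a x) (b x) := by
  rw [Finset.prod_univ_sum, Fintype.piFinset_univ]
  refine Finset.sum_congr rfl fun a _ => ?_
  rw [Finset.prod_univ_sum, Fintype.piFinset_univ]

theorem TT_conj (π : Perm X) (A : X → Matrix (Fin 2) (Fin 2) ℝ) (U W : Matrix (Fin 2) (Fin 2) ℝ)
    (h : W * U = 1) : TT π (fun x => U * A x * W) = TT π A := by
  unfold TT
  have h1 : ∀ s : X → Fin 2, ∏ x, (U * A x * W) (s x) (s (π x)) =
      ∑ a : X → Fin 2, ∑ b : X → Fin 2, (∏ x, A x (a x) (b x)) *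
        ∏ y, (W (b (π.symm y)) (s y) * U (s y) (a y)) := by
    intro s
    have e1 : ∀ x, (U * A x * W) (s x) (s (π x)) =
        ∑ a, ∑ b, U (s x) a * A x a b * W b (s (π x)) := by
      intro x
      rw [Matrix.mul_apply]
      simp_rw [Matrix.mul_apply, Finset.sum_mul]
      exact Finset.sum_comm
    rw [Finset.prod_congr rfl fun x _ => e1 x,
      prod_sum_sum (fun x a b => U (s x) a * A x a b * W b (s (π x)))]
    refine Finset.sum_congr rfl fun a _ => Finset.sum_congr rfl fun b _ => ?_
    have e2 : ∏ y, W (b (π.symm y)) (s y) = ∏ x, W (b x) (s (π x)) := by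
      rw [← Equiv.prod_comp π (fun y => W (b (π.symm y)) (s y))]
      refine Finset.prod_congr rfl fun x _ => ?_
      rw [Equiv.symm_apply_apply]
    rw [Finset.prod_mul_distrib (f := fun y => W (b (π.symm y)) (s y)), e2,
      ← Finset.prod_mul_distrib, ← Finset.prod_mul_distrib]
    refine Finset.prod_congr rfl fun x _ => ?_
    ring
  simp_rw [h1]
  rw [Finset.sum_comm]
  refine Finset.sum_congr rfl fun a _ => ?_
  rw [Finset.sum_comm]
  have h2 : ∀ b : X → Fin 2, ∑ s : X → Fin 2, (∏ x, A x (a x) (b x)) *
        ∏ y, (W (b (π.symm y)) (s y) * U (s y) (a y)) =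
      if b = a ∘ π then ∏ x, A x (a x) (b x) else 0 := by
    intro b
    rw [← Finset.mul_sum]
    have e3 : ∑ s : X → Fin 2, ∏ y, (W (b (π.symm y)) (s y) * U (s y) (a y)) =
        ∏ y, (if b (π.symm y) = a y then (1:ℝ) else 0) := by
      rw [← Fintype.piFinset_univ,
        ← Finset.prod_univ_sum (fun _ => univ) (fun y c => W (b (π.symm y)) c * U c (a y))]
      refine Finset.prod_congr rfl fun y _ => ?_
      have := congrFun (congrFun h (b (π.symm y))) (a y)
      rw [Matrix.mul_apply, Matrix.one_apply] at this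
      exact this
    rw [e3]
    by_cases hb : b = a ∘ π
    · rw [if_pos hb]
      have : ∏ y, (if b (π.symm y) = a y then (1:ℝ) else 0) = 1 := by
        refine Finset.prod_eq_one fun y _ => ?_
        rw [if_pos]
        rw [hb]; simp
      rw [this, mul_one]
    · rw [if_neg hb]
      have : ∃ y, b (π.symm y) ≠ a y := by
        by_contra hcon
        push Not at hcon
        apply hb
        funext x
        have := hcon (π x)
        rw [Equiv.symm_apply_apply] at this
        simpa using this
      obtain ⟨y, hy⟩ := this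
      have h0 : ∏ y, (if b (π.symm y) = a y then (1:ℝ) else 0) = 0 :=
        Finset.prod_eq_zero (Finset.mem_univ y) (if_neg hy)
      rw [h0, mul_zero]
  rw [Finset.sum_congr rfl fun b _ => h2 b]
  simp

/-- the Hadamard matrix and half of it -/
noncomputable def Hd : Matrix (Fin 2) (Fin 2) ℝ := !![1, 1; 1, -1]
noncomputable def Hh : Matrix (Fin 2) (Fin 2) ℝ := !![1/2, 1/2; 1/2, -1/2]

lemma Hh_Hd : Hh * Hd = 1 := by
  ext i j
  fin_cases i <;> fin_cases j <;> simp [Hh, Hd, Matrix.mul_apply, Fin.sum_univ_two] <;> norm_num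

/-- `1 + t σ¹` -/
noncomputable def Fl (t : ℝ) : Matrix (Fin 2) (Fin 2) ℝ := !![1, t; t, 1]
/-- `1 + t σ³` -/
noncomputable def Dg (t : ℝ) : Matrix (Fin 2) (Fin 2) ℝ := !![1 + t, 0; 0, 1 - t]
/-- jump matrix -/
noncomputable def Jm : Matrix (Fin 2) (Fin 2) ℝ := !![0, -1; 1, 0]
/-- `σ¹` and `σ³` -/
noncomputable def S1 : Matrix (Fin 2) (Fin 2) ℝ := !![0, 1; 1, 0]
noncomputable def S3 : Matrix (Fin 2) (Fin 2) ℝ := !![1, 0; 0, -1]

lemma conj_Dg (t : ℝ) : Hd * Dg t * Hh = Fl t := by
  ext i j
  fin_cases i <;> fin_cases j <;>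
    simp [Hh, Hd, Dg, Fl, Matrix.mul_apply, Fin.sum_univ_two] <;> ring

lemma conj_Jm : Hd * Jm * Hh = -Jm := by
  ext i j
  fin_cases i <;> fin_cases j <;>
    simp [Hh, Hd, Jm, Matrix.mul_apply, Fin.sum_univ_two] <;> norm_num

lemma conj_S3 : Hd * S3 * Hh = S1 := by
  ext i j
  fin_cases i <;> fin_cases j <;>
    simp [Hh, Hd, S3, S1, Matrix.mul_apply, Fin.sum_univ_two] <;> norm_num

/-- sign of a spin: `0 ↦ 1` (up), `1 ↦ -1` (down) -/
def sgn2 : Fin 2 ≃ ℤˣ where
  toFun i := if i = 0 then 1 else -1
  invFun e := if e = 1 then 0 else 1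
  left_inv := by decide
  right_inv := by decide

lemma sgn2_zero : sgn2 0 = 1 := rfl
lemma sgn2_one : sgn2 1 = -1 := rfl

/-- weights in the flips picture = weights in the `S³` picture -/
theorem sum_wt (π : Perm X) (θ : X → ℝ) : ∑ s, wt θ π s = Zp π θ := by
  have h1 : ∑ s, wt θ π s = TT π (fun x => Fl (θ x)) := by
    unfold wt TT
    refine Finset.sum_congr rfl fun s _ => Finset.prod_congr rfl fun x _ => ?_
    generalize s x = a
    generalize s (π x) = b
    fin_cases a <;> fin_cases b <;> simp [Fl]
  have h2 : TT π (fun x => Fl (θ x)) = TT π (fun x => Dg (θ x)) := by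
    rw [← TT_conj π (fun x => Dg (θ x)) Hd Hh Hh_Hd]
    simp_rw [conj_Dg]
  rw [h1, h2]
  unfold TT Zp inv
  rw [Finset.sum_filter]
  rw [← Equiv.sum_comp (Equiv.arrowCongr (Equiv.refl X) sgn2)]
  refine Finset.sum_congr rfl fun s _ => ?_
  by_cases h : ∀ x, s (π x) = s x
  · rw [if_pos (by intro x; simp [Equiv.arrowCongr, h x])]
    refine Finset.prod_congr rfl fun x _ => ?_
    rw [h x]
    have : (Equiv.arrowCongr (Equiv.refl X) sgn2) s x = sgn2 (s x) := by simp [Equiv.arrowCongr]
    rw [this]
    generalize s x = a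
    fin_cases a
    · simp [Dg, sgn2_zero]
    · simp [Dg, sgn2_one]; ring
  · rw [if_neg]
    · push Not at h
      obtain ⟨x, hx⟩ := h
      refine Finset.prod_eq_zero (Finset.mem_univ x) ?_
      generalize s x = a at hx
      generalize s (π x) = b at hx
      fin_cases a <;> fin_cases b <;> simp_all [Dg]
    · intro h'
      apply h
      intro x
      have := h' x
      simpa [Equiv.arrowCongr] using this

lemma finv_opp {N : Type*} [Fintype N] [DecidableEq N] (π : Perm N) {u v : N} (_huv : u ≠ v)
    {s : N → ℤˣ} (hs : s ∈ finv π u v) :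
    s v = - s u := by
  classical
  rw [mem_finv] at hs
  have hex : ∃ m, 1 ≤ m ∧ ((π ^ m) u = u ∨ (π ^ m) u = v) :=
    ⟨orderOf π, orderOf_pos π, Or.inl (by rw [pow_orderOf_eq_one]; rfl)⟩
  set m := Nat.find hex with hm
  obtain ⟨hm1, hmu⟩ := Nat.find_spec hex
  have hlt : ∀ i, 1 ≤ i → i < m → (π ^ i) u ≠ u ∧ (π ^ i) u ≠ v := by
    intro i hi him
    have := Nat.find_min hex him
    push Not at this
    exact this hi
  have hind : ∀ i, 1 ≤ i → i ≤ m → s ((π ^ i) u) = - s u := by
    intro i hi
    induction i, hi using Nat.le_induction with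
    | base =>
      intro _
      rw [pow_one, hs u, if_pos (Or.inl rfl)]
    | succ i hi ih =>
      intro him
      have hne := hlt i hi (by omega)
      rw [pow_succ', Perm.mul_apply, hs, if_neg (by tauto), ih (by omega)]
  have hm' := hind m hm1 le_rfl
  rcases hmu with h | h
  · rw [h] at hm'
    rcases Int.units_eq_one_or (s u) with h1 | h1 <;> rw [h1] at hm' <;>
      exact absurd hm' (by decide)
  · rw [h] at hm'; exact hm'

/-- the numerator of the conductance in the `S³` picture -/
theorem sum_wt_jj (π : Perm X) (θ : X → ℝ) {u v : X} (huv : u ≠ v) :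
    ∑ s, wt θ π s * (jj π s u * jj π s v) = - (θ u * θ v * Zf π θ u v) := by
  set B : X → Matrix (Fin 2) (Fin 2) ℝ := fun x => if x = u ∨ x = v then Jm else Fl (θ x) with hB
  set B' : X → Matrix (Fin 2) (Fin 2) ℝ := fun x => if x = u ∨ x = v then -Jm else Dg (θ x) with hB'
  have hsplit : ∀ f : X → ℝ, ∏ x, f x = f u * f v * ∏ x ∈ univ \ {u, v}, f x := by
    intro f
    rw [← Finset.prod_sdiff (Finset.subset_univ {u, v}), Finset.prod_pair huv]
    ring
  have hne : ∀ x ∈ (univ : Finset X) \ {u, v}, ¬ (x = u ∨ x = v) := by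
    intro x hx
    simpa using hx
  have h1 : ∑ s, wt θ π s * (jj π s u * jj π s v) = θ u * θ v * TT π B := by
    unfold wt TT
    rw [Finset.mul_sum]
    refine Finset.sum_congr rfl fun s _ => ?_
    rw [hsplit (fun x => if s x = s (π x) then 1 else θ x),
      hsplit (fun x => B x (s x) (s (π x)))]
    have e1 : ∏ x ∈ univ \ {u, v}, (if s x = s (π x) then (1:ℝ) else θ x) =
        ∏ x ∈ univ \ {u, v}, B x (s x) (s (π x)) := by
      refine Finset.prod_congr rfl fun x hx => ?_
      simp only [hB, if_neg (hne x hx)]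
      generalize s x = a
      generalize s (π x) = b
      fin_cases a <;> fin_cases b <;> simp [Fl]
    have e2 : (if s u = s (π u) then (1:ℝ) else θ u) * jj π s u = θ u * B u (s u) (s (π u)) := by
      simp only [hB, true_or, if_true, jj]
      generalize s u = a
      generalize s (π u) = b
      fin_cases a <;> fin_cases b <;> simp [Jm]
    have e3 : (if s v = s (π v) then (1:ℝ) else θ v) * jj π s v = θ v * B v (s v) (s (π v)) := by
      simp only [hB, or_true, if_true, jj]
      generalize s v = a
      generalize s (π v) = b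
      fin_cases a <;> fin_cases b <;> simp [Jm]
    rw [e1]
    calc (if s u = s (π u) then (1:ℝ) else θ u) * (if s v = s (π v) then (1:ℝ) else θ v) *
          (∏ x ∈ univ \ {u, v}, B x (s x) (s (π x))) * (jj π s u * jj π s v)
        = ((if s u = s (π u) then (1:ℝ) else θ u) * jj π s u) *
          ((if s v = s (π v) then (1:ℝ) else θ v) * jj π s v) *
          (∏ x ∈ univ \ {u, v}, B x (s x) (s (π x))) := by ring
      _ = _ := by rw [e2, e3]; ring
  have h2 : TT π B = TT π B' := by
    rw [← TT_conj π B' Hd Hh Hh_Hd]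
    congr 1
    funext x
    by_cases hx : x = u ∨ x = v
    · simp only [hB, hB', if_pos hx, mul_neg, neg_mul, conj_Jm, neg_neg]
    · simp only [hB, hB', if_neg hx, conj_Dg]
  have h3 : TT π B' = - Zf π θ u v := by
    unfold TT Zf finv
    rw [Finset.sum_filter, ← Finset.sum_neg_distrib]
    rw [← Equiv.sum_comp (Equiv.arrowCongr (Equiv.refl X) sgn2)]
    refine Finset.sum_congr rfl fun s _ => ?_
    have hval : ∀ x, (Equiv.arrowCongr (Equiv.refl X) sgn2) s x = sgn2 (s x) := by
      intro x; simp [Equiv.arrowCongr]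
    by_cases h : ∀ x, (Equiv.arrowCongr (Equiv.refl X) sgn2) s (π x) =
        if x = u ∨ x = v then - (Equiv.arrowCongr (Equiv.refl X) sgn2) s x
          else (Equiv.arrowCongr (Equiv.refl X) sgn2) s x
    · rw [if_pos h]
      rw [hsplit (fun x => B' x (s x) (s (π x)))]
      have hopp := finv_opp π huv (mem_finv.2 h)
      rw [hval, hval] at hopp
      have hu := h u
      have hv := h v
      rw [if_pos (Or.inl rfl), hval, hval] at hu
      rw [if_pos (Or.inr rfl), hval, hval] at hv
      have e4 : ∏ x ∈ univ \ {u, v}, B' x (s x) (s (π x)) =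
          ∏ x ∈ univ \ {u, v}, (1 + θ x * sg ((Equiv.arrowCongr (Equiv.refl X) sgn2) s x)) := by
        refine Finset.prod_congr rfl fun x hx => ?_
        have hx' := h x
        rw [if_neg (hne x hx), hval, hval] at hx'
        have hx'' : s (π x) = s x := sgn2.injective hx'
        rw [hx'', hval]
        simp only [hB', if_neg (hne x hx)]
        generalize s x = a
        fin_cases a
        · simp [Dg, sgn2_zero]
        · simp [Dg, sgn2_one]; ring
      rw [e4]
      have e5 : B' u (s u) (s (π u)) * B' v (s v) (s (π v)) = -1 := by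
        simp only [hB', true_or, or_true, if_true]
        generalize s u = a at hopp hu ⊢
        generalize s v = b at hopp hv ⊢
        generalize s (π u) = a' at hu ⊢
        generalize s (π v) = b' at hv ⊢
        fin_cases a <;> fin_cases b <;> fin_cases a' <;> fin_cases b' <;>
          first
          | exact absurd hopp (by decide)
          | exact absurd hu (by decide)
          | exact absurd hv (by decide)
          | simp [Jm]
      rw [e5]; ring
    · rw [if_neg h, neg_zero]
      push Not at h
      obtain ⟨x, hx⟩ := h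
      rw [hval, hval] at hx
      refine Finset.prod_eq_zero (Finset.mem_univ x) ?_
      by_cases hxuv : x = u ∨ x = v
      · rw [if_pos hxuv] at hx
        simp only [hB', if_pos hxuv]
        generalize s x = a at hx ⊢
        generalize s (π x) = b at hx ⊢
        fin_cases a <;> fin_cases b <;>
          first
          | exact absurd rfl hx
          | exact absurd (by decide) hx
          | simp [Jm]
      · rw [if_neg hxuv] at hx
        simp only [hB', if_neg hxuv]
        generalize s x = a at hx ⊢
        generalize s (π x) = b at hx ⊢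
        fin_cases a <;> fin_cases b <;>
          first
          | exact absurd rfl hx
          | simp [Dg]
  rw [h1, h2, h3]; ring

end Vale.Agent.P361.LRO.Loop
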