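import Mathlib

/-! P361 / LRO / LOC by loops.
`Zp π θ = ∑_{s ∘ π = s} ∏_v (1 + θ_v s_v)` (weight of a full ring configuration), GKS positivity,
comparison under composition with one transposition, and the flipped weight. -/

namespace Vale.Agent.P361.LRO.Loop

open Finset Equiv

variable {N : Type*} [Fintype N] [DecidableEq N]

/-- real value of a sign -/
noncomputable def sg (e : ℤˣ) : ℝ := ((e : ℤ) : ℝ)

@[simp] lemma sg_one : sg 1 = 1 := by simp [sg]
@[simp] lemma sg_neg (e : ℤˣ) : sg (-e) = - sg e := by simp [sg]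
@[simp] lemma sg_mul (e f : ℤˣ) : sg (e * f) = sg e * sg f := by simp [sg]
lemma sg_cases (e : ℤˣ) : sg e = 1 ∨ sg e = -1 := by
  rcases Int.units_eq_one_or e with h | h <;> simp [h]
lemma sg_prod {ι : Type*} (s : Finset ι) (f : ι → ℤˣ) : sg (∏ i ∈ s, f i) = ∏ i ∈ s, sg (f i) := by
  induction s using Finset.cons_induction with
  | empty => simp
  | cons a s ha ih => rw [prod_cons, prod_cons, sg_mul, ih]

/-- the set of `π`-invariant spin configurations -/
def inv (π : Perm N) : Finset (N → ℤˣ) := univ.filter fun s => ∀ x, s (π x) = s x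

lemma mem_inv {π : Perm N} {s : N → ℤˣ} : s ∈ inv π ↔ ∀ x, s (π x) = s x := by
  simp [inv]

/-- weight of a ring configuration -/
noncomputable def Zp (π : Perm N) (θ : N → ℝ) : ℝ := ∑ s ∈ inv π, ∏ v, (1 + θ v * sg (s v))

/-- character sums are nonnegative -/
lemma char_sum_nonneg (π : Perm N) (χ : (N → ℤˣ) → ℤˣ)
    (hχ : ∀ s t, χ (s * t) = χ s * χ t) : 0 ≤ ∑ s ∈ inv π, sg (χ s) := by
  by_cases h : ∃ t ∈ inv π, χ t = -1
  · obtain ⟨t, ht, hχt⟩ := h
    have h1 : ∑ s ∈ inv π, sg (χ s) = ∑ s ∈ inv π, sg (χ (s * t)) := by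
      refine (Finset.sum_bij' (fun s _ => s * t) (fun s _ => s * t) ?_ ?_ ?_ ?_ ?_).symm
      · intro s hs
        rw [mem_inv] at hs ht ⊢
        intro x; simp [hs x, ht x]
      · intro s hs
        rw [mem_inv] at hs ht ⊢
        intro x; simp [hs x, ht x]
      · intro s _
        funext x
        simp [mul_assoc]
      · intro s _
        funext x
        simp [mul_assoc]
      · intro s _
        simp
    have h2 : ∑ s ∈ inv π, sg (χ (s * t)) = - ∑ s ∈ inv π, sg (χ s) := by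
      rw [← Finset.sum_neg_distrib]
      refine Finset.sum_congr rfl fun s _ => ?_
      rw [hχ, hχt]; simp
    have : ∑ s ∈ inv π, sg (χ s) = 0 := by linarith
    rw [this]
  · push Not at h
    refine Finset.sum_nonneg fun s hs => ?_
    rcases Int.units_eq_one_or (χ s) with h1 | h1
    · simp [h1]
    · exact absurd h1 (h s hs)

/-- GKS -/
lemma gks (π : Perm N) (θ : N → ℝ) (hθ : ∀ v, 0 ≤ θ v) (B : Finset N) :
    0 ≤ ∑ s ∈ inv π, (∏ v ∈ B, sg (s v)) * ∏ v, (1 + θ v * sg (s v)) := by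
  have h : ∀ s : N → ℤˣ, (∏ v ∈ B, sg (s v)) * ∏ v, (1 + θ v * sg (s v)) =
      ∑ A ∈ (univ : Finset N).powerset, (∏ v ∈ A, θ v) * sg ((∏ v ∈ B, s v) * ∏ v ∈ A, s v) := by
    intro s
    rw [Finset.prod_one_add, Finset.mul_sum]
    refine Finset.sum_congr rfl fun A _ => ?_
    rw [Finset.prod_mul_distrib, sg_mul, sg_prod, sg_prod]
    ring
  simp_rw [h]
  rw [Finset.sum_comm]
  refine Finset.sum_nonneg fun A _ => ?_
  rw [← Finset.mul_sum]
  refine mul_nonneg (Finset.prod_nonneg fun v _ => hθ v) ?_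
  refine char_sum_nonneg π (fun s => (∏ v ∈ B, s v) * ∏ v ∈ A, s v) ?_
  intro s t
  simp only [Pi.mul_apply, Finset.prod_mul_distrib]
  rw [mul_mul_mul_comm]

lemma one_add_nonneg {t : ℝ} (h0 : 0 ≤ t) (h1 : t ≤ 1) (e : ℤˣ) : 0 ≤ 1 + t * sg e := by
  rcases sg_cases e with h | h <;> rw [h] <;> linarith

lemma Zp_pos (π : Perm N) (θ : N → ℝ) (h0 : ∀ v, 0 ≤ θ v) (h1 : ∀ v, θ v ≤ 1) : 0 < Zp π θ := by
  have h : (∏ v, (1 + θ v * sg ((1 : N → ℤˣ) v))) ≤ Zp π θ := by
    refine Finset.single_le_sum (f := fun s : N → ℤˣ => ∏ v, (1 + θ v * sg (s v))) ?_ ?_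
    · intro s _
      exact Finset.prod_nonneg fun v _ => one_add_nonneg (h0 v) (h1 v) _
    · rw [mem_inv]; intro x; rfl
  refine lt_of_lt_of_le (Finset.prod_pos fun v _ => ?_) h
  simp only [Pi.one_apply, sg_one, mul_one]
  linarith [h0 v]

/-- configurations invariant under `π` with `s a = s b` -/
noncomputable def Yp (π : Perm N) (θ : N → ℝ) (a b : N) : ℝ :=
  ∑ s ∈ (inv π).filter (fun s => s a = s b), ∏ v, (1 + θ v * sg (s v))

lemma Yp_swap (π : Perm N) (θ : N → ℝ) (a b : N) : Yp (π * swap a b) θ a b = Yp π θ a b := by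
  unfold Yp
  congr 1
  ext s
  simp only [Finset.mem_filter, mem_inv]
  constructor
  · rintro ⟨h, hab⟩
    refine ⟨fun x => ?_, hab⟩
    have h1 := h (swap a b x)
    rw [Perm.mul_apply, swap_apply_self] at h1
    rw [h1]
    by_cases hxa : x = a
    · subst hxa; rw [swap_apply_left]; exact hab.symm
    · by_cases hxb : x = b
      · subst hxb; rw [swap_apply_right]; exact hab
      · rw [swap_apply_of_ne_of_ne hxa hxb]
  · rintro ⟨h, hab⟩
    refine ⟨fun x => ?_, hab⟩
    rw [Perm.mul_apply, h]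
    by_cases hxa : x = a
    · subst hxa; rw [swap_apply_left]; exact hab.symm
    · by_cases hxb : x = b
      · subst hxb; rw [swap_apply_right]; exact hab
      · rw [swap_apply_of_ne_of_ne hxa hxb]

lemma Yp_le_Zp (π : Perm N) (θ : N → ℝ) (h0 : ∀ v, 0 ≤ θ v) (h1 : ∀ v, θ v ≤ 1) (a b : N) :
    Yp π θ a b ≤ Zp π θ := by
  refine Finset.sum_le_sum_of_subset_of_nonneg (Finset.filter_subset _ _) ?_
  intro s _ _
  exact Finset.prod_nonneg fun v _ => one_add_nonneg (h0 v) (h1 v) _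

lemma Zp_le_two_Yp (π : Perm N) (θ : N → ℝ) (h0 : ∀ v, 0 ≤ θ v) (a b : N) :
    Zp π θ ≤ 2 * Yp π θ a b := by
  have hg : 0 ≤ ∑ s ∈ inv π, (sg (s a) * sg (s b)) * ∏ v, (1 + θ v * sg (s v)) := by
    by_cases hab : a = b
    · subst hab
      have := gks π θ h0 ∅
      refine le_of_le_of_eq this (Finset.sum_congr rfl fun s _ => ?_)
      rcases sg_cases (s a) with h | h <;> rw [h] <;> simp
    · have := gks π θ h0 {a, b}
      refine le_of_le_of_eq this (Finset.sum_congr rfl fun s _ => ?_)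
      rw [Finset.prod_pair hab]
  have h2 : Zp π θ + ∑ s ∈ inv π, (sg (s a) * sg (s b)) * ∏ v, (1 + θ v * sg (s v)) =
      2 * Yp π θ a b := by
    unfold Zp Yp
    rw [← Finset.sum_add_distrib, Finset.sum_filter, Finset.mul_sum]
    refine Finset.sum_congr rfl fun s _ => ?_
    by_cases h : s a = s b
    · rw [if_pos h, h]
      rcases sg_cases (s b) with h' | h' <;> rw [h'] <;> ring
    · rw [if_neg h]
      have : sg (s a) * sg (s b) = -1 := by
        rcases Int.units_eq_one_or (s a) with ha | ha <;>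
          rcases Int.units_eq_one_or (s b) with hb | hb
        · exact absurd (ha.trans hb.symm) h
        · rw [ha, hb]; simp
        · rw [ha, hb]; simp
        · exact absurd (ha.trans hb.symm) h
      rw [this]; ring
  linarith

/-- opening (or closing) one gate changes the weight by a factor in `[1/2, 2]` -/
theorem Zp_mul_swap_le (π : Perm N) (θ : N → ℝ) (h0 : ∀ v, 0 ≤ θ v) (h1 : ∀ v, θ v ≤ 1) (a b : N) :
    Zp (π * swap a b) θ ≤ 2 * Zp π θ := by
  have h2 := Zp_le_two_Yp (π * swap a b) θ h0 a b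
  rw [Yp_swap] at h2
  linarith [Yp_le_Zp π θ h0 h1 a b]

theorem Zp_le_mul_swap (π : Perm N) (θ : N → ℝ) (h0 : ∀ v, 0 ≤ θ v) (h1 : ∀ v, θ v ≤ 1) (a b : N) :
    Zp π θ ≤ 2 * Zp (π * swap a b) θ := by
  have h2 := Zp_mul_swap_le (π * swap a b) θ h0 h1 a b
  rwa [mul_assoc, swap_mul_self, mul_one] at h2

end Vale.Agent.P361.LRO.Loop
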